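import Crest.Agent.N233.Mx.Fb

/-!
# Row 233 (helper43): the mixed basic construction is contractible
-/

set_option autoImplicit false
open Set Filter Topology unitInterval

noncomputable section

namespace Crest.Agent.N233

open Crest.Agent.N255.Ra Dv

variable {S : Type} {Γ : SimpleGraph S}

namespace Dv.Ch

variable {T F : Type} [TopologicalSpace T] [Group F] [MulAction F T] (Φ : Ch Γ T) (c : Cmb F T)

include c in
/-- a map that is the identity on the collar is homotopic to the identity relative to a smaller collar -/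
theorem exists_rel {k : Φ.X → Φ.X} (hk : Continuous k) (e : ∀ x, 1 / 2 ≤ ‖Φ.p x‖ → k x = x) :
    ∃ H : C(I × Φ.X, Φ.X), (∀ t x, 3 / 4 ≤ ‖Φ.p x‖ → H (t, x) = x) ∧ (∀ x, H (0, x) = k x) ∧
      ∀ x, H (1, x) = x := by
  have := continuous_cl
  refine ⟨⟨fun q => if ‖Φ.p q.2‖ ≤ 1 / 2 then Φ.ga c (k q.2) q.2 q.1 else
    Φ.h (q.2, cl (max 0 (3 - 4 * ‖Φ.p q.2‖) * min (3 * (q.1 : ℝ)) (3 - 3 * (q.1 : ℝ)))),
    Continuous.if_le ((Φ.continuous_ga c).comp
      (f := fun q : I × Φ.X => (k q.2, q.2, (q.1 : ℝ))) (by fun_prop)) (by fun_prop)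
      (by fun_prop) continuous_const fun q h => ?_⟩, fun t x h => ?_, fun x => ?_, fun x => ?_⟩
  · rw [e _ h.ge, ga_diag, h]
    norm_num
  · rw [ContinuousMap.coe_mk, if_neg (by dsimp only; linarith), max_eq_left (by dsimp only; linarith),
      zero_mul, cl, projIcc_left]
    exact Φ.h_zero x
  · rw [ContinuousMap.coe_mk]
    split_ifs with h
    · rw [ga, if_pos (by norm_num)]
      simpa using Φ.h_zero _
    · rw [e _ (not_le.1 h).le]
      simpa using Φ.h_zero _
  · rw [ContinuousMap.coe_mk]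
    split_ifs with h
    · rw [ga, if_neg (by norm_num), pa_two _ _ _ _ (by norm_num)]
    · simpa using Φ.h_zero _

end Dv.Ch

namespace Mx

variable {Φ Φ' : W Γ → Fb Γ}

section mp
variable {P : Type} [TopologicalSpace P] (k : ∀ u, C(P × (Φ u).X1, (Φ' u).X1))

/-- families of maps that are the identity near the mirrors -/
def Rel : Prop := ∀ u t x, 3 / 4 ≤ ‖(Φ u).p x.1‖ → (Φ' u).p (k u (t, x)).1 = (Φ u).p x.1

/-- the chamberwise map -/
def mpf (q : P × MX Φ) : MX Φ' :=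
  mk' Φ' (exists_mk' q.2).choose (k _ (q.1, (exists_mk' q.2).choose_spec.choose))

variable {k}

theorem mpf_mk' (hk : Rel k) (t : P) (u : W Γ) (x : (Φ u).X1) :
    mpf k (t, mk' Φ u x) = mk' Φ' u (k u (t, x)) := by
  have e := (exists_mk' (mk' Φ u x)).choose_spec.choose_spec
  unfold mpf
  dsimp only
  generalize (exists_mk' (mk' Φ u x)).choose_spec.choose = x' at e ⊢
  generalize (exists_mk' (mk' Φ u x)).choose = v at x' e ⊢
  by_cases h : ‖(Φ u).p x‖ < 1
  · cases mk'_eq e h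
    rfl
  · have e1 : pt u ((Φ u).p x) = pt v ((Φ v).p x') := congrArg zz e
    have e2 := sub_le_pt ((Φ u).ch.p_mem x) ((Φ v).ch.p_mem x') u v
    have e3 : (Φ u).p x = (Φ v).p x' := eq_of_norm_sub_le_zero
      (e2.trans (norm_eq_zero.2 (sub_eq_zero.2 e1)).le)
    have h1 := hk u t x (by linarith)
    have h2 := hk v t x' (by rw [← e3]; linarith)
    refine (eq_of_zz (u := u) (x := (Φ' u).inc (k u (t, x))) (m := mk' Φ' v (k v (t, x')))
      ((congrArg (pt u) h1).trans (e1.trans (congrArg (pt v) h2).symm)) ?_).symm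
    exact fun e => h (by rw [← h1, show (Φ' u).p (k u (t, x)).1 = 0 from e]; simp)

theorem continuous_mpf (hk : Rel k) : Continuous (mpf k) := by
  refine continuous_iff_continuousAt.2 fun q0 => ?_
  obtain ⟨t0, m0⟩ := q0
  obtain ⟨u, x0, rfl⟩ := exists_mk' m0
  refine (IsOpenEmbedding.id.prodMap (isOpenEmbedding_par u)).continuousAt_iff
    (x := (t0, (Φ u).inc x0)).1 ?_
  have cp : Continuous fun q : P × (Φ u).U => (Φ u).p q.2 :=
    (Φ u).p.continuous.comp (continuous_subtype_val.comp continuous_snd)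
  by_cases h : ‖(Φ u).p x0‖ < 1
  · have c1 : Continuous fun q : P × (Φ u).U => mk' Φ' u (k u (q.1, (Φ u).rt q.2)) :=
      (continuous_mk' u).comp ((k u).continuous.comp (continuous_fst.prodMk
        ((Φ u).continuous_rt.comp (continuous_subtype_val.comp continuous_snd))))
    refine c1.continuousAt.congr ?_
    filter_upwards [cp.norm.continuousAt.eventually_lt continuousAt_const h] with ⟨t, x⟩ h1
    rw [← mpf_mk' hk, (Φ u).rt_eq h1.le]
    rfl
  · have a : {q : P × (Φ u).U | 3 / 4 < ‖fld ((Φ u).p q.2)‖} ∈ 𝓝 (t0, (Φ u).inc x0) :=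
      (isOpen_lt continuous_const (continuous_fld.comp cp).norm).mem_nhds (by
        change _ < ‖fld ((Φ u).p x0)‖
        rw [fld_eq x0.2]; linarith)
    have b : ∀ q : P × (Φ u).U, 3 / 4 < ‖fld ((Φ u).p q.2)‖ → (Φ u).p q.2 ∈ Fb.C2 Γ := fun q h =>
      ⟨(Φ u).p_mem _, fun e => by rw [e, fld_eq (by simp), norm_zero] at h; linarith, q.2.2⟩
    refine (((continuous_par (Φ := Φ') u).comp_continuousOn
      ((Φ' u).jU_cont.comp cp.continuousOn b)).continuousAt a).congr ?_
    filter_upwards [a] with ⟨t, x⟩ h1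
    obtain ⟨v, x', e⟩ := exists_mk' (par Φ u x)
    have e1 : pt u ((Φ u).p x) = pt v ((Φ v).p x') := congrArg zz e
    obtain ⟨h2, w, h3⟩ := pt_mem ((Φ u).p_mem x) x.2 u
    have e3 : fld ((Φ u).p x) = (Φ v).p x' := eq_of_norm_sub_le_zero
      ((sub_le_pt h2 ((Φ v).ch.p_mem x') w v).trans
        (norm_eq_zero.2 (sub_eq_zero.2 (h3.symm.trans e1))).le)
    change par Φ' u ((Φ' u).jU ((Φ u).p x)) = mpf k (t, par Φ u x)
    rw [e, mpf_mk' hk]
    refine eq_of_zz ?_ (by rw [(Φ' u).p_jU (b (t, x) h1)]; exact (b (t, x) h1).2.1)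
    rw [zz_par, (Φ' u).p_jU (b (t, x) h1), zz_mk', hk v t x' (by rw [← e3]; exact le_of_lt h1), e1]

end mp

/-- the trivial bicombing -/
def cU : Cmb Unit Unit := ⟨.const _ (), fun _ _ => rfl, fun _ _ => rfl, fun _ _ => rfl, fun _ _ _ _ => rfl⟩

variable (Φ)

/-- the standard chamber mapped into the chamber `u` -/
def kc (u : W Γ) (y : Kc Γ) : (Φ u).X1 := (cone Γ ()).kf (Φ u).ch cU y

theorem continuous_kc (u : W Γ) : Continuous (kc Φ u) := (cone Γ ()).continuous_kf (Φ u).ch cU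

theorem p_kc (u : W Γ) {y : Kc Γ} (h : 1 / 2 ≤ ‖y.1‖) : (Φ u).p (kc Φ u y) = y :=
  (cone Γ ()).p_kf (Φ u).ch cU h

/-- a homotopy section of `zz` -/
def gS (z : Sig Γ) : MX Φ := mk' Φ (crd_spec z).choose (kc Φ _ (crd z))

theorem crd_eq {z : Sig Γ} {u : W Γ} {y : Kc Γ} (e : z.1 = pt u y) : crd z = y := by
  obtain ⟨v, h⟩ := crd_spec z
  exact Subtype.ext (eq_of_norm_sub_le_zero ((sub_le_pt (crd z).2 y.2 v u).trans
    (norm_eq_zero.2 (sub_eq_zero.2 (h.symm.trans e))).le))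

theorem gS_eq {z : Sig Γ} {u : W Γ} (e : z.1 = pt u (crd z)) : gS Φ z = mk' Φ u (kc Φ u (crd z)) := by
  have e' := (crd_spec z).choose_spec
  unfold gS
  generalize (crd_spec z).choose = v at e' ⊢
  by_cases h : ‖(crd z).1‖ < 1
  · rw [near_eq (u := u) (u' := v) (y := crd z) (crd z).2.2
      (by rw [← e, ← e', sub_self, norm_zero]; linarith)]
  · have h1 := p_kc Φ u (y := crd z) (by linarith)
    have h2 := p_kc Φ v (y := crd z) (by linarith)
    refine eq_of_zz ((congrArg (pt v) h2).trans (e'.symm.trans (e.trans (congrArg (pt u) h1).symm))) ?_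
    exact fun e => h (by rw [← h2, show (Φ v).p (kc Φ v (crd z)).1 = 0 from e]; simp)

theorem continuous_gS : Continuous (gS Φ) := by
  refine continuous_iff_continuousAt.2 fun z0 => ?_
  obtain ⟨u, e0⟩ := crd_spec z0
  have cc : Continuous fun z : Sig Γ => ‖(crd z).1‖ := (continuous_subtype_val.comp continuous_crd).norm
  by_cases h : ‖(crd z0).1‖ < 1
  · refine ((continuous_mk' u).comp ((continuous_kc Φ u).comp continuous_crd)).continuousAt.congr ?_
    have h1 : ∀ᶠ z : Sig Γ in 𝓝 z0, ‖z0.1 - z.1‖ < 1 - ‖(crd z0).1‖ :=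
      (by fun_prop : Continuous fun z : Sig Γ => ‖z0.1 - z.1‖).continuousAt.eventually_lt
        continuousAt_const (by simpa using h)
    filter_upwards [h1] with z h1
    obtain ⟨v, e⟩ := crd_spec z
    obtain rfl : u = v := near_eq (crd z).2.2 (by rwa [← e, ← e0])
    exact (gS_eq Φ e).symm
  · let A : Set (Sig Γ) := {z | 3 / 4 < ‖(crd z).1‖ ∧ ‖pt u 0 - z.1‖ < 2}
    have hA : IsOpen A := (isOpen_lt continuous_const cc).inter
      (isOpen_lt (continuous_const.sub continuous_subtype_val).norm continuous_const)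
    have a : A ∈ 𝓝 z0 := hA.mem_nhds ⟨by linarith, by rw [e0, norm_pt']; linarith [(crd z0).2.2]⟩
    have b : ∀ z ∈ A, rs u z.1 ∈ Fb.C2 Γ := fun z h => by
      obtain ⟨h1, h2, h3⟩ := star z.2 h.2
      refine ⟨h1, fun e => ?_, h2⟩
      have := h.1
      rw [crd_eq (u := u) (y := ⟨0, zero_mem_Kc⟩) (by rw [← h3, e]), norm_zero] at this
      linarith
    refine (((continuous_par (Φ := Φ) u).comp_continuousOn ((Φ u).jU_cont.comp
      ((continuous_rs u).comp continuous_subtype_val).continuousOn b)).continuousAt a).congr ?_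
    filter_upwards [a] with z h1
    obtain ⟨v, e⟩ := crd_spec z
    change par Φ u ((Φ u).jU (rs u z.1)) = _
    rw [gS_eq Φ e]
    refine eq_of_zz ?_ (by rw [(Φ u).p_jU (b z h1)]; exact (b z h1).2.1)
    rw [zz_par, (Φ u).p_jU (b z h1), zz_mk', p_kc Φ v (by linarith [h1.1]), ← e, (star z.2 h1.2).2.2]

/-- the map to the Davis complex -/
def zS (m : MX Φ) : Sig Γ := ⟨zz m, zz_mem m⟩

theorem continuous_zS : Continuous (zS Φ) := continuous_zz.subtype_mk _

/-- `gS ∘ zS` is homotopic to the identity, chamberwise and relative to a neighbourhood of the mirrors -/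
theorem exists_htpy : ∃ H : ∀ u, C(I × (Φ u).X1, (Φ u).X1),
    (∀ u t x, 3 / 4 ≤ ‖(Φ u).p x.1‖ → H u (t, x) = x) ∧
      (∀ u x, mk' Φ u (H u (0, x)) = gS Φ (zS Φ (mk' Φ u x))) ∧ ∀ u x, H u (1, x) = x := by
  have a := fun u => (Φ u).ch.exists_rel cU (k := fun x => kc Φ u ⟨_, (Φ u).ch.p_mem x⟩)
    ((continuous_kc Φ u).comp ((Φ u).ch.p.continuous.subtype_mk _)) fun x h => Subtype.ext
      ((Φ u).p_inj (p_kc Φ u h) (by rw [p_kc Φ u h]; exact (Φ u).ch.ne_zero (by norm_num) h))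
  choose H h1 h2 h3 using a
  refine ⟨H, h1, fun u x => ?_, h3⟩
  have e : crd (zS Φ (mk' Φ u x)) = ⟨_, (Φ u).ch.p_mem x⟩ := crd_eq (u := u) rfl
  rw [gS_eq Φ (u := u) (by rw [e]; rfl), e]
  exact congrArg _ (h2 u x)

instance : ContractibleSpace (MX Φ) := by
  obtain ⟨H, h1, h2, h3⟩ := exists_htpy Φ
  have hk : Rel H := fun u t x h => by rw [h1 u t x h]
  let g : C(Sig Γ, MX Φ) := ⟨gS Φ, continuous_gS Φ⟩
  let z : C(MX Φ, Sig Γ) := ⟨zS Φ, continuous_zS Φ⟩
  have a : (g.comp z).Homotopic (.id _) := ⟨⟨⟨mpf H, continuous_mpf hk⟩, fun m => by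
    obtain ⟨u, x, rfl⟩ := exists_mk' m
    exact (mpf_mk' hk _ _ _).trans (h2 u x), fun m => by
    obtain ⟨u, x, rfl⟩ := exists_mk' m
    exact (mpf_mk' hk _ _ _).trans (congrArg _ (h3 u x))⟩⟩
  obtain ⟨y, b⟩ := ((id_nullhomotopic (Sig Γ)).comp_left z).comp_right g
  exact (contractible_iff_id_nullhomotopic _).2 ⟨y, a.symm.trans b⟩

end Mx

end Crest.Agent.N233

end
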