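import Crest.Agent.N233.Dv.Top

/-!
# Row 233 (helper43): the basic construction with a different filling in every chamber
-/

set_option autoImplicit false
open Set Filter Topology unitInterval

noncomputable section

namespace Crest.Agent.N233.Mx

open Crest.Agent.N255.Ra Dv

variable {S : Type} {Γ : SimpleGraph S}

/-- coordinates on the star of the vertex `u` -/
def rs (u : W Γ) (z : LI (W Γ)) : LI S := res (tr u⁻¹ (RelIso.refl Γ.Adj) z)

theorem continuous_rs (u : W Γ) : Continuous (rs u) := continuous_res.comp (continuous_tr _ _)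

@[simp] theorem rs_pt (u : W Γ) (y : LI S) : rs u (pt u y) = y := by
  rw [rs, tr_pt _ _ _ (y' := y) fun _ => rfl, aut_refl, inv_mul_cancel, res_pt]

theorem pt_inj {u : W Γ} {y y' : LI S} (h : pt u y = pt u y') : y = y' := by
  rw [← rs_pt u y, h, rs_pt]

theorem norm_pt' (u : W Γ) (y : LI S) : ‖pt u 0 - pt u y‖ = ‖y‖ := by
  refine le_antisymm (norm_sub_le' (norm_nonneg _) fun r => by simpa using pt_sub u 0 y r)
    (norm_le (norm_nonneg _) fun s => le_trans ?_ (sub_le_norm _ _ (u * gen Γ s * u⁻¹)))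
  rw [pt_apply, pt_apply, ← mul_sub, abs_mul, abs_sg]
  simp [mul_assoc]

theorem pt_mem {y : LI S} (hy : y ∈ Cone (Fl Γ)) (h : ‖y‖ < 2) (u : W Γ) :
    fld y ∈ Kc Γ ∧ ∃ w, pt u y = pt w (fld y) :=
  ⟨fld_mem hy fun s => (le_norm y s).trans h.le, (fold hy).elim fun w e =>
    ⟨u * w, by simpa using pt_mul_congr u e⟩⟩

theorem star {z : LI (W Γ)} (hz : z ∈ Sig Γ) {u : W Γ} (h : ‖pt u 0 - z‖ < 2) :
    rs u z ∈ Cone (Fl Γ) ∧ ‖rs u z‖ < 2 ∧ pt u (rs u z) = z := by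
  obtain ⟨v, y, hy, rfl⟩ := hz
  have h1 : u⁻¹ * v ∈ WT Γ {s | y s ≠ 0} := inv_mem_iff.1 <| mem_WT_of_N fun r hr => mem_of_ex fun e => by
    rw [mem_N_inv] at hr
    have := gap hr 0 y
    have h1 := ex_le (0 : LI S) (u⁻¹ * v * r * (u⁻¹ * v)⁻¹)
    rw [show (u⁻¹ * v)⁻¹ * (u⁻¹ * v * r * (u⁻¹ * v)⁻¹) * (u⁻¹ * v) = r by group, e] at this
    rw [norm_zero] at h1
    linarith
  obtain ⟨y', h2, h3, h4, -⟩ := unfold hy h1
  have h5 := pt_mul_congr u h4
  rw [mul_one, mul_inv_cancel_left] at h5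
  rw [← h5, norm_pt'] at h
  rw [← h5, rs_pt]
  exact ⟨⟨fun s => (h2 s).1, Fl.mono hy.1.2 h3⟩, h, rfl⟩

theorem eq_zero_of {u v : W Γ} {y : LI S} (h : ‖y‖ < 2)
    (e : pt u y = pt v 0) : y = 0 := li_ext fun s => by
  have h1 := abs_pt (y := 0) (by simp) v (u * gen Γ s * u⁻¹)
  have h2 := abs_ex (0 : LI S) (v⁻¹ * (u * gen Γ s * u⁻¹) * v)
  rw [norm_zero, abs_nonpos_iff] at h2
  rw [← e, h2, pt_apply, abs_mul, abs_sg, one_mul, sub_zero, abs_eq zero_le_one] at h1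
  simp only [mul_assoc, inv_mul_cancel, mul_one, inv_mul_cancel_left, ex_gen] at h1
  have := le_norm y s
  rcases h1 with h1 | h1
  · simpa using h1
  · linarith

/-- a bare filling of the cone -/
structure Fb (Γ : SimpleGraph S) where
  X : Type
  [top : TopologicalSpace X]
  [ct : ContractibleSpace X]
  p : C(X, LI S)
  p_mem : ∀ x, p x ∈ Cone (Fl Γ)
  j : LI S → X
  j_cont : ContinuousOn j (Cone (Fl Γ) \ {0})
  pj : ∀ y ∈ Cone (Fl Γ), y ≠ 0 → p (j y) = y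
  jp : ∀ x, p x ≠ 0 → j (p x) = x

attribute [instance] Fb.top Fb.ct

namespace Fb

variable (Φ : Fb Γ)

/-- the closed chamber -/
abbrev X1 : Type := {x : Φ.X // ‖Φ.p x‖ ≤ 1}

theorem nrm_mem {x : Φ.X} (h : 1 ≤ ‖Φ.p x‖) : ‖Φ.p x‖⁻¹ • Φ.p x ∈ Cone (Fl Γ) \ {0} :=
  ⟨smul_mem_Cone (Φ.p_mem x) (by positivity), smul_ne_zero (inv_ne_zero (by linarith))
    (norm_ne_zero_iff.1 (by linarith))⟩

/-- the retraction onto the closed chamber -/
def rt (x : Φ.X) : Φ.X1 :=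
  ⟨if ‖Φ.p x‖ ≤ 1 then x else Φ.j (‖Φ.p x‖⁻¹ • Φ.p x), by
    split_ifs with h
    · exact h
    · have := Φ.nrm_mem (not_le.1 h).le
      rw [Φ.pj _ this.1 this.2, norm_smul, norm_inv, norm_norm]
      exact inv_mul_le_one⟩

theorem rt_eq {x : Φ.X} (h : ‖Φ.p x‖ ≤ 1) : Φ.rt x = ⟨x, h⟩ := Subtype.ext (if_pos h)

theorem continuous_rt : Continuous Φ.rt := by
  have c1 : Continuous fun x => ‖Φ.p x‖ := by fun_prop
  refine Continuous.subtype_mk ?_ _
  refine continuous_if_le c1 continuous_const continuousOn_id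
    (Φ.j_cont.comp (f := fun x => ‖Φ.p x‖⁻¹ • Φ.p x) (ContinuousOn.smul (c1.continuousOn.inv₀
      fun x h => ?_) Φ.p.continuous.continuousOn) fun x h => Φ.nrm_mem h) fun x h => ?_
  · exact (zero_lt_one.trans_le h).ne'
  · rw [h, inv_one, one_smul, Φ.jp _ (norm_ne_zero_iff.1 (by rw [h]; exact one_ne_zero))]

theorem exists_ctr : ∃ (x0 : Φ.X) (h : C(Φ.X × I, Φ.X)), (∀ x, h (x, 0) = x) ∧ ∀ x, h (x, 1) = x0 := by
  obtain ⟨x0, ⟨H⟩⟩ := id_nullhomotopic Φ.X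
  exact ⟨x0, ⟨fun q => H (q.2, q.1), by fun_prop⟩, H.apply_zero, H.apply_one⟩

/-- the chamber -/
def ch : Ch Γ Unit where
  X := Φ.X1
  p := ⟨fun x => Φ.p x.1, by fun_prop⟩
  p_mem x := ⟨Φ.p_mem x.1, x.2⟩
  j y := Φ.rt (Φ.j y)
  j_cont := Φ.continuous_rt.comp_continuousOn (Φ.j_cont.mono fun _ h => ⟨h.1.1, h.2⟩)
  pj y hy h0 := by
    rw [rt_eq _ (by rw [Φ.pj _ hy.1 h0]; exact hy.2)]
    exact Φ.pj _ hy.1 h0
  jp x h := (congrArg Φ.rt (Φ.jp _ h)).trans (Φ.rt_eq x.2)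
  a := .const _ ()
  b := .const _ (Φ.rt Φ.exists_ctr.choose)
  h := ⟨fun q => Φ.rt (Φ.exists_ctr.choose_spec.choose (q.1.1, q.2)),
    Φ.continuous_rt.comp (by fun_prop)⟩
  h_zero x := (congrArg Φ.rt (Φ.exists_ctr.choose_spec.choose_spec.1 _)).trans (Φ.rt_eq x.2)
  h_one x := congrArg Φ.rt (Φ.exists_ctr.choose_spec.choose_spec.2 _)

/-- the model of the open star of a vertex -/
def U : TopologicalSpace.Opens Φ.X := ⟨{x | ‖Φ.p x‖ < 2}, isOpen_lt (by fun_prop) continuous_const⟩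

/-- the chamber in the star -/
def inc (x : Φ.X1) : Φ.U := ⟨x.1, x.2.trans_lt one_lt_two⟩

theorem continuous_inc : Continuous Φ.inc := continuous_subtype_val.subtype_mk _

open Classical in
/-- the inverse of `p` with values in the star -/
def jU (y : LI S) : Φ.U :=
  if h : ‖Φ.p (Φ.j y)‖ < 2 then ⟨Φ.j y, h⟩ else Φ.inc (Φ.rt (Φ.j y))

/-- the punctured star -/
def C2 (Γ : SimpleGraph S) : Set (LI S) := {y | y ∈ Cone (Fl Γ) ∧ y ≠ 0 ∧ ‖y‖ < 2}

theorem jU_val {y : LI S} (h : y ∈ C2 Γ) : (Φ.jU y).1 = Φ.j y := by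
  rw [jU, dif_pos (by rw [Φ.pj _ h.1 h.2.1]; exact h.2.2)]

theorem p_jU {y : LI S} (h : y ∈ C2 Γ) : Φ.p (Φ.jU y) = y := by rw [jU_val _ h, Φ.pj _ h.1 h.2.1]

theorem jU_cont : ContinuousOn Φ.jU (C2 Γ) :=
  IsInducing.subtypeVal.continuousOn_iff.2
    ((Φ.j_cont.mono fun _ h => ⟨h.1, h.2.1⟩).congr fun _ h => Φ.jU_val h)

theorem p_inj {x x' : Φ.X} (h : Φ.p x = Φ.p x') (h0 : Φ.p x ≠ 0) : x = x' := by
  rw [← Φ.jp x h0, h, Φ.jp x' (h ▸ h0)]

end Fb

variable (Φ : W Γ → Fb Γ)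

/-- points of different stars that are identified -/
def st : Setoid (Σ u, (Φ u).U) where
  r a b := pt a.1 ((Φ a.1).p a.2) = pt b.1 ((Φ b.1).p b.2) ∧ ((Φ a.1).p a.2 = 0 → a = b)
  iseqv :=
    { refl := fun _ => ⟨rfl, fun _ => rfl⟩
      symm := fun {a b} h => ⟨h.1.symm, fun e =>
        (h.2 (eq_zero_of a.2.2 (by rw [h.1, e]))).symm⟩
      trans := fun {a b c} h h' => ⟨h.1.trans h'.1, fun e => by
        obtain rfl := h.2 e
        exact h'.2 e⟩ }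

/-- the mixed basic construction -/
def MX : Type := Quotient (st Φ)

instance : TopologicalSpace (MX Φ) := inferInstanceAs (TopologicalSpace (Quotient _))

/-- the star of the vertex `u` -/
def par (u : W Γ) (x : (Φ u).U) : MX Φ := Quotient.mk _ ⟨u, x⟩

/-- the point `x` of the chamber `u` -/
def mk' (u : W Γ) (x : (Φ u).X1) : MX Φ := par Φ u ((Φ u).inc x)

variable {Φ}

/-- the map to the Davis complex -/
def zz (m : MX Φ) : LI (W Γ) := 
  Quotient.lift (s := st Φ) (fun a => pt a.1 ((Φ a.1).p a.2)) (fun _ _ h => And.left h) m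

@[simp] theorem zz_par (u : W Γ) (x : (Φ u).U) : zz (par Φ u x) = pt u ((Φ u).p x) := rfl
@[simp] theorem zz_mk' (u : W Γ) (x : (Φ u).X1) : zz (mk' Φ u x) = pt u ((Φ u).p x) := rfl

theorem continuous_zz : Continuous (zz : MX Φ → LI (W Γ)) :=
  Continuous.quotient_lift (continuous_sigma fun u => (continuous_pt u).comp
    ((Φ u).p.continuous.comp continuous_subtype_val)) _

theorem continuous_par (u : W Γ) : Continuous (par Φ u) :=
  continuous_quotient_mk'.comp continuous_sigmaMk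

theorem continuous_mk' (u : W Γ) : Continuous (mk' Φ u) :=
  (continuous_par u).comp (Φ u).continuous_inc

theorem exists_par (m : MX Φ) : ∃ u x, m = par Φ u x := by
  obtain ⟨u, x⟩ := m; exact ⟨u, x, rfl⟩

theorem par_eq {u v : W Γ} {x : (Φ u).U} {x' : (Φ v).U} : par Φ u x = par Φ v x' ↔
    pt u ((Φ u).p x) = pt v ((Φ v).p x') ∧ ((Φ u).p x = 0 → (⟨u, x⟩ : Σ u, (Φ u).U) = ⟨v, x'⟩) :=
  Quotient.eq

theorem eq_of_zz {u : W Γ} {x : (Φ u).U} {m : MX Φ} (h : zz (par Φ u x) = zz m)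
    (h0 : (Φ u).p x ≠ 0) : par Φ u x = m := by
  obtain ⟨v, x', rfl⟩ := exists_par m
  exact par_eq.2 ⟨h, fun e => absurd e h0⟩

theorem par_inj (u : W Γ) : Function.Injective (par Φ u) := fun x x' h => by
  obtain ⟨h1, h2⟩ := par_eq.1 h
  by_cases e : (Φ u).p x = 0
  · exact eq_of_heq (Sigma.mk.inj (h2 e)).2
  · exact Subtype.ext ((Φ u).p_inj (pt_inj h1) e)

theorem zz_mem (m : MX Φ) : zz m ∈ Sig Γ := by
  obtain ⟨u, x, rfl⟩ := exists_par m
  obtain ⟨h1, w, h2⟩ := pt_mem ((Φ u).p_mem x) x.2 u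
  exact ⟨w, _, h1, h2⟩

theorem exists_mk' (m : MX Φ) : ∃ u x, m = mk' Φ u x := by
  obtain ⟨u, x, rfl⟩ := exists_par m
  by_cases h : ‖(Φ u).p x‖ ≤ 1
  · exact ⟨u, ⟨x.1, h⟩, rfl⟩
  obtain ⟨h1, w, h2⟩ := pt_mem ((Φ u).p_mem x) x.2 u
  have h3 := Fill.fld_mem' ((Φ u).p_mem x) (not_le.1 h).le x.2
  have h4 := (Φ w).pj _ h3.1 h3.2
  exact ⟨w, ⟨(Φ w).j (fld ((Φ u).p x)), by rw [h4]; exact h1.2⟩,
    eq_of_zz (by simp [h2, h4]) (norm_ne_zero_iff.1 (by linarith))⟩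

theorem range_par (u : W Γ) : range (par Φ u) = {m | ‖pt u 0 - zz m‖ < 2} := by
  ext m
  constructor
  · rintro ⟨x, rfl⟩
    exact (norm_pt' _ _).trans_lt x.2
  · intro h
    obtain ⟨h1, h2, h3⟩ := star (zz_mem m) h
    by_cases e : rs u (zz m) = 0
    · obtain ⟨v, x, rfl⟩ := exists_mk' m
      rw [e] at h3
      obtain rfl : u = v := near_eq x.2 (y := 0) (by rw [h3]; simp)
      exact ⟨_, rfl⟩
    · exact ⟨(Φ u).jU _, eq_of_zz (by rw [zz_par, (Φ u).p_jU ⟨h1, e, h2⟩, h3])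
        (by rwa [(Φ u).p_jU ⟨h1, e, h2⟩])⟩

theorem isOpenEmbedding_par (u : W Γ) : IsOpenEmbedding (par Φ u) := by
  refine .of_continuous_injective_isOpenMap (continuous_par u) (par_inj u) fun O hO => ?_
  refine (isQuotientMap_quotient_mk' (s := st Φ)).isOpen_preimage.1 (isOpen_sigma_iff.2 fun v => ?_)
  change IsOpen (par Φ v ⁻¹' (par Φ u '' O))
  by_cases e : v = u
  · subst e
    exact (preimage_image_eq O (par_inj v)).symm ▸ hO
  have c : Continuous fun x : (Φ v).U => pt v ((Φ v).p x) := (continuous_pt v).comp (by fun_prop)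
  have c' := (continuous_rs u).comp c
  let A : Set (Φ v).U := {x | ‖pt u 0 - pt v ((Φ v).p x)‖ < 2 ∧ rs u (pt v ((Φ v).p x)) ≠ 0}
  have hA : IsOpen A := (isOpen_lt (continuous_const.sub c).norm continuous_const).inter
    (isOpen_ne_fun c' continuous_const)
  have m : ∀ x ∈ A, rs u (pt v ((Φ v).p x)) ∈ Fb.C2 Γ := fun x hx =>
    let a := star (zz_mem (par Φ v x)) hx.1; ⟨a.1, hx.2, a.2.1⟩
  convert ((Φ u).jU_cont.comp c'.continuousOn m).isOpen_inter_preimage hA hO using 1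
  ext x
  constructor
  · rintro ⟨x', hx, h⟩
    obtain ⟨h1, h2⟩ := par_eq.1 h
    have h0 : (Φ u).p x' ≠ 0 := fun h0 => e (congrArg Sigma.fst (h2 h0)).symm
    have a : x ∈ A := ⟨by rw [← h1, norm_pt']; exact x'.2, by rwa [← h1, rs_pt]⟩
    refine ⟨a, ?_⟩
    have : (Φ u).jU (rs u (pt v ((Φ v).p x))) = x' := Subtype.ext ((Φ u).p_inj (by
      rw [(Φ u).p_jU (m x a), ← h1, rs_pt]) (by rw [(Φ u).p_jU (m x a)]; exact a.2))
    change (Φ u).jU (rs u (pt v ((Φ v).p x))) ∈ O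
    rwa [this]
  · rintro ⟨a, h⟩
    exact ⟨(Φ u).jU (rs u (pt v ((Φ v).p x))), h, eq_of_zz (by rw [zz_par, (Φ u).p_jU (m x a)]; exact (star (zz_mem (par Φ v x)) a.1).2.2)
      (by rw [(Φ u).p_jU (m x a)]; exact a.2)⟩

instance [∀ u, T2Space (Φ u).X] : T2Space (MX Φ) := ⟨fun m m' h => by
  by_cases e : zz m = zz m'
  · obtain ⟨u, x, rfl⟩ := exists_par m
    obtain ⟨x', rfl⟩ : m' ∈ range (par Φ u) := by
      rw [range_par, mem_ofPred, ← e, zz_par, norm_pt']; exact x.2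
    exact separated_by_isOpenEmbedding (isOpenEmbedding_par u) fun a => h (a ▸ rfl)
  · exact separated_by_continuous continuous_zz e⟩

theorem exists_chart [∀ u, ChartedSpace E4 (Φ u).X] (m : MX Φ) :
    ∃ e : OpenPartialHomeomorph (MX Φ) E4, m ∈ e.source := by
  obtain ⟨u, x, rfl⟩ := exists_par m
  have : Nonempty (Φ u).U := ⟨x⟩
  refine ⟨((isOpenEmbedding_par u).toOpenPartialHomeomorph _).symm.trans (chartAt E4 x), ?_⟩
  rw [OpenPartialHomeomorph.trans_source]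
  refine ⟨by simp, ?_⟩
  rw [mem_preimage, (isOpenEmbedding_par u).toOpenPartialHomeomorph_left_inv]
  exact mem_chart_source _ _

instance [∀ u, ChartedSpace E4 (Φ u).X] : ChartedSpace E4 (MX Φ) where
  atlas := univ
  chartAt m := (exists_chart m).choose
  mem_chart_source m := (exists_chart m).choose_spec
  chart_mem_atlas _ := trivial

theorem mk'_eq {u v : W Γ} {x : (Φ u).X1} {x' : (Φ v).X1} (h : mk' Φ u x = mk' Φ v x')
    (h1 : ‖(Φ u).p x‖ < 1) : (⟨u, x⟩ : Σ u, (Φ u).X1) = ⟨v, x'⟩ := by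
  have e : pt u ((Φ u).p x) = pt v ((Φ v).p x') := congrArg zz h
  obtain rfl : u = v := near_eq x'.2 (y := (Φ u).p x) (by rw [← e, sub_self, norm_zero]; linarith)
  obtain rfl : x = x' := Subtype.ext (congrArg (fun a : (Φ u).U => a.1) (par_inj u h))
  rfl

end Crest.Agent.N233.Mx

end
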